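import Vale.Agent.P352G21.Core
import Vale.Agent.P352.BW.H820.Tk

/-!
# P352G, row DUG: twisted duality
-/

set_option linter.all false

noncomputable section

open Filter Topology Set
open scoped ComplexConjugate

namespace Vale.Agent.P352G21

open Vale.Agent.P352 Vale.Agent.P352.GF Vale.Agent.P352.BW
open Vale.Agent.P352.H246 Vale.Agent.P352.H496 Vale.Agent.P352.H755 Vale.Agent.P352.H15
open Vale.Agent.P352X Vale.Agent.P352G
open Vale.Agent.P352.BW.T (bq)
open Vale.Agent.P132 (ModData)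
open UniformSpace (Completion)
open Complex (I)

section hilbert

variable {H : Type*} [NormedAddCommGroup H] [InnerProductSpace ℂ H] [CompleteSpace H]

/-- the conjugate algebra -/
def cjA (u : H →L[ℂ] H) (N : VonNeumannAlgebra H) : VonNeumannAlgebra H where
  toStarSubalgebra := StarSubalgebra.centralizer ℂ ((fun Y => u * Y * star u) '' N.commutant)
  centralizer_centralizer' := by simp

lemma mem_cjA {u : H →L[ℂ] H} (hu : u ∈ unitary (H →L[ℂ] H)) {N : VonNeumannAlgebra H}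
    {X : H →L[ℂ] H} : X ∈ cjA u N ↔ star u * X * u ∈ N := by
  have u1 : ∀ Z, star u * (u * Z) = Z := fun Z => by rw [← mul_assoc, hu.1, one_mul]
  have u2 : ∀ Z, u * (star u * Z) = Z := fun Z => by rw [← mul_assoc, hu.2, one_mul]
  refine (StarSubalgebra.mem_centralizer_iff ℂ).trans ⟨fun h => ?_, fun h => ?_⟩
  · rw [← N.commutant_commutant, VonNeumannAlgebra.mem_commutant_iff]
    intro Y hY
    have := congrArg (fun Z => star u * Z * u) (h _ ⟨Y, hY, rfl⟩).1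
    simpa only [mul_assoc, u1, hu.1, mul_one] using this
  · have k : ∀ Y ∈ N.commutant, u * Y * star u * X = X * (u * Y * star u) := fun Y hY => by
      have := congrArg (fun Z => u * Z * star u) (VonNeumannAlgebra.mem_commutant_iff.1 hY _ h)
      simpa only [mul_assoc, u2, hu.2, mul_one] using this.symm
    rintro _ ⟨Y, hY, rfl⟩
    refine ⟨k Y hY, ?_⟩
    simpa only [star_mul, star_star, mul_assoc] using k _ (star_mem hY)

variable (Γ : H →L[ℂ] H)

/-- the even part -/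
def ev (X : H →L[ℂ] H) : H →L[ℂ] H := (2⁻¹ : ℂ) • (X + Γ * X * Γ)

/-- the odd part times the grading -/
def og (X : H →L[ℂ] H) : H →L[ℂ] H := (2⁻¹ : ℂ) • (X - Γ * X * Γ) * Γ

/-- the Klein transformation -/
def kl : H →L[ℂ] H := ((1 - I) / 2) • 1 + ((1 + I) / 2) • Γ

variable {Γ} (g2 : Γ * Γ = 1)
include g2

lemma gg (X : H →L[ℂ] H) : Γ * (Γ * X) = X := by rw [← mul_assoc, g2, one_mul]

lemma ev_g (X : H →L[ℂ] H) : Γ * ev Γ X * Γ = ev Γ X := by
  simp only [ev, mul_smul_comm, smul_mul_assoc, mul_add, add_mul, mul_assoc, gg g2, g2, mul_one]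
  rw [add_comm]

lemma og_g (X : H →L[ℂ] H) : Γ * og Γ X * Γ = -og Γ X := by
  simp only [og, mul_smul_comm, smul_mul_assoc, mul_sub, sub_mul, mul_assoc, gg g2, g2, mul_one]
  module

lemma ev_og (X : H →L[ℂ] H) : ev Γ X + og Γ X * Γ = X := by
  simp only [ev, og, smul_mul_assoc, mul_assoc, g2, mul_one]
  module

lemma tw_ev (X : H →L[ℂ] H) : ev Γ (ev Γ X + og Γ X) = ev Γ X := by
  rw [ev, mul_add, add_mul, ev_g g2, og_g g2]
  module

lemma tw_og (X : H →L[ℂ] H) : og Γ (ev Γ X + og Γ X) = og Γ X * Γ := by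
  rw [og, mul_add, add_mul, ev_g g2, og_g g2]
  congr 1
  module

lemma mem_gr {N : VonNeumannAlgebra H} (hN : ∀ X ∈ N, Γ * X * Γ ∈ N) {c : ℂ} (hc : c ≠ 0)
    (X : H →L[ℂ] H) : ev Γ X + c • og Γ X ∈ N ↔ ev Γ X ∈ N ∧ og Γ X ∈ N := by
  have sm : ∀ (z : ℂ) Y, Y ∈ N → z • Y ∈ N := fun z Y hY => N.toStarSubalgebra.smul_mem hY z
  refine ⟨fun h => ?_, fun h => add_mem h.1 (sm _ _ h.2)⟩
  have h' := hN _ h
  rw [mul_add, add_mul, mul_smul_comm, smul_mul_assoc, ev_g g2, og_g g2] at h'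
  constructor
  · convert sm 2⁻¹ _ (add_mem h h') using 1
    module
  · convert sm (2 * c)⁻¹ _ (sub_mem h h') using 1
    match_scalars <;> field_simp <;> ring

variable (gs : star Γ = Γ)
include gs

lemma star_kl : star (kl Γ) = ((1 + I) / 2) • 1 + ((1 - I) / 2) • Γ := by
  simp [kl, gs, sub_eq_add_neg]

lemma kl_uni : kl Γ ∈ unitary (H →L[ℂ] H) := by
  constructor <;> rw [star_kl g2 gs, kl] <;>
    simp only [mul_add, add_mul, mul_smul_comm, smul_mul_assoc, g2, mul_one, one_mul] <;>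
    match_scalars <;> ring_nf <;> simp <;> ring_nf

lemma kl_cj (X : H →L[ℂ] H) : star (kl Γ) * X * kl Γ = ev Γ X + I • og Γ X := by
  rw [star_kl g2 gs, kl]
  simp only [ev, og, mul_add, add_mul, sub_mul, mul_smul_comm, smul_mul_assoc, g2, mul_one, one_mul,
    mul_assoc]
  match_scalars <;> ring_nf <;> simp <;> ring_nf

omit gs in
lemma back {M N : VonNeumannAlgebra H} (loc : ∀ X ∈ N, X + Γ * X * Γ ∈ M ∧ (X - Γ * X * Γ) * Γ ∈ M)
    {X : H →L[ℂ] H} (h : ev Γ X + og Γ X ∈ N) : X ∈ M := by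
  have h1 : ev Γ (ev Γ X + og Γ X) ∈ M := M.toStarSubalgebra.smul_mem (loc _ h).1 _
  have h2 : og Γ (ev Γ X + og Γ X) ∈ M := by
    rw [og, smul_mul_assoc]
    exact M.toStarSubalgebra.smul_mem (loc _ h).2 _
  rw [tw_ev g2] at h1
  rw [tw_og g2] at h2
  exact ev_og g2 X ▸ add_mem h1 h2

/-- twisted duality -/
theorem dual_abs {M N : VonNeumannAlgebra H} {ξ : H} (E : ModData M ξ) (gv : Γ ξ = ξ)
    (hN : ∀ X ∈ N, Γ * X * Γ ∈ N)
    (loc : ∀ X ∈ N, X + Γ * X * Γ ∈ M.commutant ∧ (X - Γ * X * Γ) * Γ ∈ M.commutant)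
    (gU : ∀ t, Γ * E.U t = E.U t * Γ) (inv : ∀ t, ∀ X ∈ N, E.sg t X ∈ N)
    (cyc : Dense {z | ∃ X ∈ N, X ξ = z}) (X : H →L[ℂ] H) :
    X ∈ M.commutant ↔ ev Γ X + og Γ X ∈ N := by
  have m : ∀ X, X ∈ cjA (kl Γ) N ↔ ev Γ X + og Γ X ∈ N := fun X => by
    rw [mem_cjA (kl_uni g2 gs), kl_cj g2 gs, mem_gr g2 hN Complex.I_ne_zero,
      ← mem_gr g2 hN one_ne_zero, one_smul]
  refine ⟨fun hX => (m X).1 ((tk M (cjA (kl Γ) N) ξ E (fun t Z hZ => ?_) (cyc.mono ?_)).2
    (fun Z hZ => back g2 loc ((m Z).1 hZ)) X hX), back g2 loc⟩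
  · rw [m] at hZ ⊢
    have k : ∀ t Y, Γ * (E.U t * Y) = E.U t * (Γ * Y) := fun t Y => by
      rw [← mul_assoc, gU, mul_assoc]
    convert inv t _ hZ using 1
    simp only [ModData.sg, ev, og, mul_add, add_mul, mul_sub, sub_mul, mul_smul_comm,
      smul_mul_assoc, mul_assoc, k, ← gU]
  · rintro _ ⟨Z, hZ, rfl⟩
    refine ⟨ev Γ Z + og Γ Z, (m _).2 (by rwa [tw_ev g2, tw_og g2, ev_og g2]), ?_⟩
    conv_rhs => rw [← ev_og g2 Z]
    simp only [ContinuousLinearMap.add_apply, ContinuousLinearMap.mul_apply, gv]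

end hilbert

variable {D : Type*} [NormedAddCommGroup D] [InnerProductSpace ℂ D] [GrD D] {Q : Theory D}
  {A : (V → V) → D → D} {𝒜 : Set V → VonNeumannAlgebra (Completion D)}

theorem dual0 (bwg : BWG D) (h : LNmZ Q A 𝒜) (hG : TfGenZ Q) {a b : V} (ha : IsNull a)
    (hb : IsNull b) (hab : GF.mdot a b = 1) (X : Completion D →L[ℂ] Completion D) :
    X ∈ (𝒜 (Wdg a b 0)).commutant ↔ tw X ∈ 𝒜 (Wdg b a 0) := by
  have t := EG.sg_row h.cg
  obtain ⟨E⟩ := modW h ha hb hab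
  let g : ℝ → EG.Sh h.cg := fun s => ⟨⟨1, bq a b s, 0, one_pos, T.isLor_bq ha hb hab s⟩, false⟩
  have e : ∀ s, E.U s = (g s).U h.cg := bw bwg h hG ha hb hab E
  refine dual_abs t.g2 t.gs E t.gv (h.gam _) (fun X => h.loc a b X ha hb hab)
    (fun s => e s ▸ t.gU (g s)) (fun s Z hZ => ?_)
    (EG.SGx.rs (c := h.cg) (EB.open_Wdg _ _ _) (EG.SGx.wne ha hb hab)) X
  rw [ModData.sg, ← E.star_U, e]
  refine h.mono _ _ ?_ _ ((t.alg (g s) _ Z).1 hZ)
  rintro _ ⟨x, hx, rfl⟩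
  exact (bq_pre ha hb hab s x).2.2 hx

theorem dual1 (bwg : BWG D) (h : LNmZ Q A 𝒜) (hG : TfGenZ Q) {a b : V} (y : V) (ha : IsNull a)
    (hb : IsNull b) (hab : GF.mdot a b = 1) (X : Completion D →L[ℂ] Completion D) :
    X ∈ (𝒜 (Wdg a b y)).commutant ↔ tw X ∈ 𝒜 (Wdg b a y) := by
  have t := EG.sg_row h.cg
  let g : EG.Sh h.cg := ⟨⟨1, GF.one, y, one_pos, H496.isLor_one⟩, false⟩
  have hu := t.uni g
  have al : ∀ a b Z, Z ∈ 𝒜 (Wdg a b 0) ↔ g.U h.cg * Z * star (g.U h.cg) ∈ 𝒜 (Wdg a b y) :=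
    fun a b Z => JCb.wdg_tr a b y ▸ t.alg g _ Z
  have gU : Gm D * g.U h.cg = g.U h.cg * Gm D := t.gU g
  have gU' : Gm D * star (g.U h.cg) = star (g.U h.cg) * Gm D := t.U_inv g ▸ t.gU g.inv
  generalize g.U h.cg = u at hu al gU gU'
  have s : ∀ X, u * (star u * X * u) * star u = X := fun X => by
    simp only [← mul_assoc]
    rw [hu.2, one_mul, mul_assoc, hu.2, mul_one]
  have k : ∀ Y, Gm D * (star u * Y) = star u * (Gm D * Y) := fun Y => by
    rw [← mul_assoc, gU', mul_assoc]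
  have e : tw (star u * X * u) = star u * tw X * u := by
    simp only [tw, evp', odp, mul_add, add_mul, mul_sub, sub_mul, mul_smul_comm,
      smul_mul_assoc, mul_assoc, k, ← gU]
  rw [← s (tw X), ← al, ← e, ← dual0 bwg h hG ha hb hab, JCb.comm_conj hu (al a b), s]

/-- **row DUG** -/
theorem dug (bwg : BWG D) : DUG D := by
  intro Q A 𝒜 h hG a b y ha hb hab
  obtain ⟨b, hb, hab, e⟩ := JCb.norm_ab hb hab
  rw [(e y).1, (e y).2]
  refine ⟨dual1 bwg h hG y ha hb hab, fun e ψ ψ' h1 _ hp Z hZ => ?_⟩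
  have t := EG.sg_row h.cg
  have g2 : Gm D * Gm D = 1 := t.g2
  have gs : star (Gm D) = Gm D := t.gs
  have gv : Gm D (om Q) = om Q := t.gv
  have gg : ∀ z, Gm D (Gm D z) = z := fun z => DFunLike.congr_fun g2 z
  have k := core0 bwg h hG y hb ha (by rw [md_comm]; exact hab) (ψ := ψ) (ψ' := EG.sg e • ψ')
    (fun X X' a1 => by rw [hp X X' a1, inner_smul_left, EG.Bas.sgc])
    ((dual1 bwg h hG y ha hb hab Z).1 hZ)
  have e1 : tw Z (om Q) = Z (om Q) := by
    simp only [tw, evp', odp, ContinuousLinearMap.add_apply, ContinuousLinearMap.sub_apply,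
      ContinuousLinearMap.smul_apply, ContinuousLinearMap.mul_apply, gv]
    module
  have e2 : star (tw Z) (om Q) = star (Gm D) (star Z (om Q)) := by
    simp only [tw, evp', odp, star_add, star_sub, star_mul, star_smul, gs,
      ContinuousLinearMap.add_apply, ContinuousLinearMap.sub_apply, map_smul, map_sub, gg,
      ContinuousLinearMap.smul_apply, ContinuousLinearMap.mul_apply, gv, star_inv₀, star_ofNat]
    module
  rw [e1, e2, ContinuousLinearMap.star_eq_adjoint (Gm D), ContinuousLinearMap.adjoint_inner_left,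
    h1, inner_smul_right, inner_smul_left, EG.Bas.sgc] at k
  exact mul_left_cancel₀ (left_ne_zero_of_mul_eq_one (EG.Bas.sg2 e)) k

end Vale.Agent.P352G21
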