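import Vale.Agent.P352G.Defs
import Vale.Agent.P352X.R.JC.B
import Vale.Agent.P352X.EG.SG
import Vale.Agent.P352X.EG.BAS

/-!
# P352G, row DUG: covariance of the polynomials in the fields, the core
-/

set_option linter.all false

noncomputable section

open Filter Topology Set
open scoped ComplexConjugate

namespace Vale.Agent.P352G21

open Vale.Agent.P352 Vale.Agent.P352.GF Vale.Agent.P352.BW
open Vale.Agent.P352.H246 Vale.Agent.P352.H496 Vale.Agent.P352.H755 Vale.Agent.P352.H15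
open Vale.Agent.P352X Vale.Agent.P352G
open Vale.Agent.P352.BW.T (bq)
open Vale.Agent.P132 (ModData)
open UniformSpace (Completion)

variable {D : Type*} [NormedAddCommGroup D] [InnerProductSpace ℂ D] {Q : Theory D}

/-- polynomials pass through `U`, if the fields do -/
lemma al_ind {O O' : Set V} {s : ℝ} {L : Ix → V} {y : V} (hs : 0 < s) (hL : IsLor L)
    (hf : ∀ B g, Q.fld B → In O g → ∃ Y Y', Al Q O' Y Y' ∧
      ∀ w, B g (Q.U s L y w) = Q.U s L y (Y w)) {X X' : D → D} (h : Al Q O X X') :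
    ∃ Y Y', Al Q O' Y Y' ∧ ∀ w, X (Q.U s L y w) = Q.U s L y (Y w) := by
  induction h with
  | one => exact ⟨_, _, Al.one, fun _ => rfl⟩
  | add X X' Z Z' _ _ h1 h2 =>
    obtain ⟨Y, Y', a1, a2⟩ := h1
    obtain ⟨W, W', b1, b2⟩ := h2
    exact ⟨_, _, Al.add _ _ _ _ a1 b1, fun w => by simp only [U_add hs hL, a2, b2]⟩
  | smul r X X' _ h1 =>
    obtain ⟨Y, Y', a1, a2⟩ := h1
    exact ⟨_, _, Al.smul r _ _ a1, fun w => by simp only [U_smul hs hL, a2]⟩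
  | fld B B' g X X' hB _ _ hg _ h1 =>
    obtain ⟨Y, Y', a1, a2⟩ := h1
    obtain ⟨W, W', b1, b2⟩ := hf B g hB hg
    exact ⟨_, _, b1.mul a1, fun w => by simp only [a2, b2]⟩

/-- the adjoint relation -/
lemma al_adj {O O' : Set V} {s : ℝ} {L : Ix → V} {y : V} (hs : 0 < s) (hL : IsLor L)
    (su : ∀ z, ∃ v, Q.U s L y v = z) {X X' Y Y' : D → D} (hX : Al Q O X X') (hY : Al Q O' Y Y')
    (h : ∀ w, X (Q.U s L y w) = Q.U s L y (Y w)) (w : D) :
    X' (Q.U s L y w) = Q.U s L y (Y' w) := by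
  refine ext_inner_left ℂ fun z => ?_
  obtain ⟨v, rfl⟩ := su z
  rw [← hX.adj, h, Q.U_inner _ _ _ _ _ hs hL, Q.U_inner _ _ _ _ _ hs hL, hY.adj]

lemma al_one {O : Set V} {B : Fld D} {g : Fn} (hB : Q.fld B) (hg : In O g) :
    ∃ Y', Al Q O (B g) Y' := by
  obtain ⟨B', h1, h2⟩ := Q.adj B hB
  exact ⟨_, Al.fld B B' g _ _ hB h1 h2 hg Al.one⟩

/-- translations -/
lemma al_tr {O O' : Set V} (y : V) (hO : ∀ x, x + y ∈ O → x ∈ O') {X X' : D → D}
    (h : Al Q O X X') :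
    ∃ Y Y', Al Q O' Y Y' ∧ ∀ w, X (Q.U 1 GF.one y w) = Q.U 1 GF.one y (Y w) := by
  refine al_ind one_pos H496.isLor_one (fun B g hB hg => ?_) h
  obtain ⟨Y', a⟩ := al_one hB (JCa.in_sim one_pos H496.isLor_one y hg (O' := O') fun x hx =>
    hO x (by rwa [sim_one'] at hx))
  exact ⟨_, _, a, fun w => Q.transl B y g w hB hg.1⟩

/-- Lorentz transformations -/
lemma al_lor (hG : MfAll Q) {O O' : Set V} {L : Ix → V} (hL : IsLor L)
    (hO : ∀ x, sim 1 L 0 x ∈ O → x ∈ O') {X X' : D → D} (h : Al Q O X X') :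
    ∃ Y Y', Al Q O' Y Y' ∧ ∀ w, X (Q.U 1 L 0 w) = Q.U 1 L 0 (Y w) := by
  refine al_ind one_pos hL (fun B g hB hg => ?_) h
  have hg' := JCa.in_sim one_pos hL 0 hg hO
  obtain ⟨n, C, h1, h2⟩ := hG B hB
  have k : ∀ i, ∃ Y Y', Al Q O' Y Y' ∧ ∀ w, C i g (Q.U 1 L 0 w) = Q.U 1 L 0 (Y w) := fun i => by
    obtain ⟨k, Φ, a, hΦ, e⟩ := h1 i
    choose Y' hY using fun b => al_one (hΦ.1 b) hg'
    refine ⟨_, _, Al.finsum Finset.univ fun b _ => Al.smul (k.ρ L b a) _ _ (hY b), fun w => ?_⟩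
    rw [e, hΦ.2 a L g w hL hg.1, H246.U_sum one_pos hL]
    simp only [U_smul one_pos hL]
  choose Y Y' a1 a2 using k
  refine ⟨_, _, Al.finsum Finset.univ fun i _ => a1 i, fun w => ?_⟩
  rw [h2 g _ hg.1, H246.U_sum one_pos hL]
  simp only [a2]

/-- Reeh and Schlieder for the polynomials in a wedge -/
lemma al_dense {a b : V} (ha : IsNull a) (hb : IsNull b) (hab : GF.mdot a b = 1) :
    Dense {z : Completion D | ∃ X X', Al Q (Wdg a b 0) X X' ∧ z = (X Q.vac : D)} := by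
  have hBig : Big (MW (Wdg a b 0)) := by
    have e : Wdg a b 0 = {y : V | 0 < GF.mdot b y ∧ GF.mdot a y < 0} := by
      ext z
      show (GF.mdot a (z - 0) < 0 ∧ 0 < GF.mdot b (z - 0)) ↔ _
      rw [sub_zero]
      exact and_comm
    rw [e]
    refine big_two (c := a - b) one_pos one_pos ?_ ?_
    · rw [md_sub, md_comm, hab, hb.1, sub_zero]
    · rw [md_sub, hab, ha.1, zero_sub]
  refine (dense_PC (Q := Q) hBig).mono ?_
  rintro _ ⟨v, hv, rfl⟩
  obtain ⟨X, X', h1, rfl⟩ := exists_Al (W := Wdg a b 0) hv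
  exact ⟨X, X', h1, rfl⟩

variable [GrD D] {A : (V → V) → D → D} {𝒜 : Set V → VonNeumannAlgebra (Completion D)}

lemma mf_of (hG : TfGenZ Q) : MfAll Q := fun B hB => by
  obtain ⟨n, C, h1, h2⟩ := hG B hB
  exact ⟨n, C, fun i => (h1 i).elim fun _ ⟨k, Φ, a, b1, _, b2⟩ => ⟨k, Φ, a, b1, b2⟩, h2⟩

lemma modW (h : LNmZ Q A 𝒜) {a b : V} (ha : IsNull a) (hb : IsNull b) (hab : GF.mdot a b = 1) :
    Nonempty (ModData (𝒜 (Wdg a b 0)) (om Q)) :=
  P132.exists_modData _ _ Kin.norm_om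
    (EG.SGx.rs (c := h.cg) (EB.open_Wdg _ _ _) (EG.SGx.wne hb ha (by rw [md_comm]; exact hab)))
    fun X hX h0 => by
      ext z
      refine Dense.induction (P := fun z => X z = 0) (EG.SGx.dns (c := h.cg) a b ha hb hab) ?_
        (isClosed_eq X.continuous continuous_const) z
      rintro _ ⟨Y, hY, rfl⟩
      rw [← ContinuousLinearMap.mul_apply, VonNeumannAlgebra.mem_commutant_iff.1 hY X hX]
      exact (congrArg Y h0).trans (map_zero Y)

lemma bw (bwg : BWG D) (h : LNmZ Q A 𝒜) (hG : TfGenZ Q) {a b : V} (ha : IsNull a) (hb : IsNull b)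
    (hab : GF.mdot a b = 1) (E : ModData (𝒜 (Wdg a b 0)) (om Q)) (t : ℝ) :
    E.U t = Ug Q 1 (bq a b t) 0 := by
  ext z
  rw [Ug_apply _ one_pos (T.isLor_bq ha hb hab t)]
  exact bwg Q A 𝒜 h hG a b t _ E z ha hb hab (T.isLor_bq ha hb hab t) fun x => sim_bst _ _ _ _ x

lemma bq_pre {a b : V} (ha : IsNull a) (hb : IsNull b) (hab : GF.mdot a b = 1) (t : ℝ) (x : V) :
    (sim 1 (bq a b t) 0 x ∈ Wdg a b 0 ↔ x ∈ Wdg a b 0) ∧
      (sim 1 (bq a b t) 0 x ∈ Wdg b a 0 ↔ x ∈ Wdg b a 0) := by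
  have b1 := T.bst_sim ha hb hab (Real.exp (-(2 * Real.pi * t)) - 1)
    (Real.exp (2 * Real.pi * t) - 1) x
  have p1 := Real.exp_pos (2 * Real.pi * t)
  have p2 := Real.exp_pos (-(2 * Real.pi * t))
  have n : ∀ {p : ℝ} (q : ℝ), 0 < p → (p * q < 0 ↔ q < 0) := fun q hp => by
    rw [← neg_pos, ← mul_neg, mul_pos_iff_of_pos_left hp, neg_pos]
  simp only [Wdg, mem_setOf_eq, sub_zero, bq, b1.1, b1.2, add_sub_cancel,
    mul_pos_iff_of_pos_left p1, mul_pos_iff_of_pos_left p2, n _ p1, n _ p2, and_self]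

/-- the polynomials in a wedge detect the pairs of the commutant -/
theorem core0 (bwg : BWG D) (h : LNmZ Q A 𝒜) (hG : TfGenZ Q) {a b : V} (y : V) (ha : IsNull a)
    (hb : IsNull b) (hab : GF.mdot a b = 1) {ψ ψ' : Completion D}
    (hp : ∀ X X', Al Q (Wdg a b y) X X' → inner ℂ ((X' Q.vac : D) : Completion D) ψ =
      inner ℂ ψ' ((X Q.vac : D) : Completion D)) {Z : Completion D →L[ℂ] Completion D}
    (hZ : Z ∈ 𝒜 (Wdg a b y)) : inner ℂ (star Z (om Q)) ψ = inner ℂ ψ' (Z (om Q)) := by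
  have t := EG.sg_row h.cg
  have hL := T.isLor_bq ha hb hab
  have h1 := H496.isLor_one
  obtain ⟨E⟩ := modW h ha hb hab
  let g : EG.Sh h.cg := ⟨⟨1, GF.one, -y, one_pos, h1⟩, false⟩
  have hu : Ug Q 1 GF.one (-y) ∈ unitary _ := t.uni g
  have hv : star (Ug Q 1 GF.one (-y)) (om Q) = om Q := (t.vac g).2
  have hZ0 : Ug Q 1 GF.one (-y) * Z * star (Ug Q 1 GF.one (-y)) ∈ 𝒜 (Wdg a b 0) := by
    refine h.mono _ _ ?_ _ ((t.alg g _ Z).1 hZ)
    rintro _ ⟨x, hx, rfl⟩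
    show sim 1 GF.one (-y) x ∈ _
    simpa only [Wdg, mem_setOf_eq, sim_one', sub_zero, ← sub_eq_add_neg] using hx
  have k := JCb.core_abs E (P := {p | ∃ X X', Al Q (Wdg a b 0) X X' ∧
      p = (↑(X Q.vac), ↑(X' Q.vac))}) (ψ := Ug Q 1 GF.one (-y) ψ) (ψ' := Ug Q 1 GF.one (-y) ψ')
    ?_ ?_ ?_ hZ0
  · simp only [star_mul, star_star, ContinuousLinearMap.mul_apply, hv,
      ContinuousLinearMap.inner_map_map_of_mem_unitary hu] at k
    exact k
  · rintro _ ⟨X, X', a1, rfl⟩ Y hY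
    rw [ContinuousLinearMap.star_eq_adjoint, ContinuousLinearMap.adjoint_inner_left]
    exact ((t.affa _ _ _ a1).2 Y hY _ _).symm
  · refine (al_dense (Q := Q) ha hb hab).mono ?_
    rintro _ ⟨X, X', a1, rfl⟩
    exact ⟨_, ⟨X, X', a1, rfl⟩, rfl⟩
  · rintro _ ⟨X, X', a1, rfl⟩ s
    obtain ⟨Y, Y', b1, b2⟩ := al_lor (mf_of hG) (hL (-s)) (fun x => (bq_pre ha hb hab _ x).1.1) a1
    have b3 := al_adj one_pos (hL (-s)) (EG.Bas.surj t 0 one_pos (hL _)) a1 b1 b2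
    obtain ⟨W, W', c1, c2⟩ := al_tr (O' := Wdg a b y) (-y) (fun x hx => by
      simpa only [Wdg, mem_setOf_eq, sub_zero, ← sub_eq_add_neg] using hx) b1
    have c3 := al_adj one_pos h1 (EG.Bas.surj t (-y) one_pos h1) b1 c1 c2
    have e : ∀ {X Y W : D → D}, (∀ w, X (Q.U 1 (bq a b (-s)) 0 w) = Q.U 1 (bq a b (-s)) 0 (Y w)) →
        (∀ w, Y (Q.U 1 GF.one (-y) w) = Q.U 1 GF.one (-y) (W w)) →
        E.U s (X Q.vac : D) = Ug Q 1 GF.one (-y) (W Q.vac : D) := fun {X Y W} d1 d2 => by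
      have d3 := d1 Q.vac
      have d4 := d2 Q.vac
      rw [Q.U_vac _ _ _ one_pos (hL _)] at d3
      rw [Q.U_vac _ _ _ one_pos h1] at d4
      rw [d3, ← Grp.coe one_pos (hL _), ← bw bwg h hG ha hb hab E, E.U_apply_neg, d4,
        Grp.coe one_pos h1]
    show inner ℂ (E.U s (X' Q.vac : D)) _ = inner ℂ _ (E.U s (X Q.vac : D))
    rw [e b2 c2, e b3 c3, ContinuousLinearMap.inner_map_map_of_mem_unitary hu,
      ContinuousLinearMap.inner_map_map_of_mem_unitary hu, hp _ _ c1]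

end Vale.Agent.P352G21
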